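import Vale.Agent.P184Z.Out.Core

namespace Vale.Agent.Results.P184.AFullBass

universe u

/-- The `ℓ¹`-Bass conjecture for all discrete groups: the Hattori-Stallings trace of an idempotent
matrix over `ℓ¹(G)` is supported on finitely many conjugacy classes of elements of finite order. -/
theorem result (G : Type u) [Group G] (q : ℕ) (e : Matrix (Fin q) (Fin q) (G → ℂ))
    (he : ∀ i j, Summable fun g => ‖e i j g‖)
    (hee : ∀ i j g, ∑ k, ∑' h, e i k h * e k j (h⁻¹ * g) = e i j g) :
    ∃ F : Finset (ConjClasses G), (∀ C ∈ F, ∀ g ∈ C.carrier, IsOfFinOrder g) ∧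
      ∀ C ∉ F, ∑' g : C.carrier, ∑ i, e i i g = 0 :=
  Vale.Agent.P184Z.Out.bassUn G q e
    ⟨he, funext fun i => funext fun j => funext fun g => hee i j g⟩

end Vale.Agent.Results.P184.AFullBass
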